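import Mathlib
import Vale.Agent.P038.K4Free

/-!
Second neighbourhoods in oriented graphs whose underlying graph has bounded clique number.
-/

namespace Vale.Agent.Results.P038.CliqueNumberRatio

open Finset

variable {V : Type} [Fintype V] [DecidableEq V]

theorem edge_bound {W : Type} [Fintype W] [DecidableEq W] (G : SimpleGraph W)
    [DecidableRel G.Adj] (m : ℕ) (hm : 0 < m) (h : G.CliqueFree (m + 1)) :
    2 * m * Finset.card G.edgeFinset ≤ (m - 1) * Fintype.card W ^ 2 := by
  obtain ⟨H, _, hH⟩ := SimpleGraph.exists_isTuranMaximal (V := W) hm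
  have h1 : Finset.card G.edgeFinset ≤ Finset.card H.edgeFinset := by convert! hH.2 h
  rw [((SimpleGraph.isTuranMaximal_iff_nonempty_iso_turanGraph hm).mp hH).some.card_edgeFinset_eq]
    at h1
  exact (Nat.mul_le_mul_left _ h1).trans SimpleGraph.mul_card_edgeFinset_turanGraph_le

theorem key (D : V → V → Prop) [DecidableRel D] (hD : ∀ u v, D u v → ¬ D v u) (m : ℕ)
    (hm : 0 < m) (hc : (SimpleGraph.fromRel D).CliqueFree (m + 2)) (v : V)
    (hmin : ∀ u, Finset.card {w | D v w} ≤ Finset.card {w | D u w}) :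
    (m + 1) * Finset.card {w | D v w} ≤
      2 * m * Finset.card {w | w ≠ v ∧ ¬ D v w ∧ ∃ u, D v u ∧ D u w} := by
  set N : Finset V := {w | D v w} with hN
  set S : Finset V := {w | w ≠ v ∧ ¬ D v w ∧ ∃ u, D v u ∧ D u w} with hS
  rcases N.eq_empty_or_nonempty with hne | hne
  · simp [hne]
  let G : SimpleGraph N := (SimpleGraph.fromRel D).comap Subtype.val
  have hG : G.CliqueFree (m + 1) := by
    intro s hs
    refine hc (insert v (s.map (Function.Embedding.subtype _))) ?_
    have hs' : (SimpleGraph.fromRel D).IsNClique (m + 1) (s.map (Function.Embedding.subtype _)) := by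
      refine (hs.map (f := Function.Embedding.subtype _)).mono ?_
      intro a b hab
      obtain ⟨a', b', hab', rfl, rfl⟩ := (SimpleGraph.map_adj ..).1 hab
      exact hab'
    refine hs'.insert fun w hw => ?_
    obtain ⟨⟨w', hw'⟩, -, rfl⟩ := Finset.mem_map.1 hw
    simp only [hN, Finset.mem_filter, Finset.mem_univ, true_and] at hw'
    have : v ≠ w' := fun e => by subst e; exact hD _ _ hw' hw'
    simpa [SimpleGraph.fromRel_adj, this] using Or.inl hw'
  let o : N → ℕ := fun u => Finset.card {w : N | D u w}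
  let i : N → ℕ := fun u => Finset.card {w : N | D w u}
  have hdeg : ∀ u : N, G.degree u = o u + i u := by
    intro u
    rw [← G.card_neighborFinset_eq_degree, ← Finset.card_union_of_disjoint]
    · congr 1
      ext w
      simp only [SimpleGraph.mem_neighborFinset, G, SimpleGraph.comap_adj,
        SimpleGraph.fromRel_adj, Finset.mem_union, Finset.mem_filter, Finset.mem_univ, true_and]
      exact ⟨fun h => h.2, fun h => ⟨fun e => by
        rcases h with h | h <;> exact hD _ _ h (e ▸ h), h⟩⟩
    · rw [Finset.disjoint_filter]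
      exact fun w _ => hD _ _
  have hoi : ∑ u, o u = ∑ u, i u := by
    simp only [o, i, Finset.card_filter]
    exact Finset.sum_comm
  have hsum : ∑ u, o u = Finset.card G.edgeFinset := by
    have := G.sum_degrees_eq_twice_card_edges
    simp only [hdeg, Finset.sum_add_distrib, ← hoi] at this
    omega
  have hneU : (Finset.univ : Finset N).Nonempty := Finset.univ_nonempty_iff.2 hne.to_subtype
  obtain ⟨u, -, hu⟩ := Finset.exists_min_image Finset.univ o hneU
  have hk : 2 * m * o u ≤ (m - 1) * Finset.card N := by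
    have h1 : Finset.card N * o u ≤ ∑ w, o w := by
      have := Finset.card_nsmul_le_sum Finset.univ o (o u) fun w _ => hu w (Finset.mem_univ w)
      simpa using this
    have h2 := edge_bound G m hm hG
    rw [Fintype.card_coe, ← hsum] at h2
    refine Nat.le_of_mul_le_mul_left ?_ hne.card_pos
    calc Finset.card N * (2 * m * o u) = 2 * m * (Finset.card N * o u) := by ring
      _ ≤ 2 * m * ∑ w, o w := Nat.mul_le_mul_left _ h1
      _ ≤ (m - 1) * Finset.card N ^ 2 := h2
      _ = Finset.card N * ((m - 1) * Finset.card N) := by ring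
  have hsub : ({w | D u.1 w} : Finset V) ⊆
      S ∪ ({w : N | D u w} : Finset N).map (Function.Embedding.subtype _) := by
    intro w hw
    simp only [Finset.mem_filter, Finset.mem_univ, true_and] at hw
    have hvu : D v u.1 := (Finset.mem_filter.1 (show u.1 ∈ N from u.2)).2
    by_cases hvw : D v w
    · exact Finset.mem_union_right _ (Finset.mem_map.2
        ⟨⟨w, by simp [hN, hvw]⟩, by simp [hw], rfl⟩)
    · refine Finset.mem_union_left _ ?_
      simp only [hS, Finset.mem_filter, Finset.mem_univ, true_and]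
      exact ⟨fun e => hD _ _ hvu (e ▸ hw), hvw, u, hvu, hw⟩
  have hle : Finset.card N ≤ Finset.card S + o u := by
    refine (hmin u).trans ((Finset.card_le_card hsub).trans ((Finset.card_union_le _ _).trans ?_))
    simp [o]
  obtain ⟨m', rfl⟩ : ∃ m', m = m' + 1 := ⟨m - 1, by omega⟩
  simp only [Nat.add_sub_cancel] at hk
  nlinarith

/-- If the underlying graph of an oriented graph has no clique on `r + 1` vertices, some vertex
`v` has `2 (r - 1) |N₂⁺(v)| ≥ r |N₁⁺(v)|`. -/
theorem general_ratio (r : ℕ) (hr : 2 ≤ r) (V : Type) [Finite V] [Nonempty V] (D : V → V → Prop)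
    (hD : ∀ u v, D u v → ¬ D v u) (hc : (SimpleGraph.fromRel D).CliqueFree (r + 1)) :
    ∃ v, r * {w | D v w}.ncard ≤
      2 * (r - 1) * {w | w ≠ v ∧ ¬ D v w ∧ ∃ u, D v u ∧ D u w}.ncard := by
  classical
  let _ := Fintype.ofFinite V
  obtain ⟨v, -, hv⟩ := Finset.exists_min_image Finset.univ
    (fun v => Finset.card {w | D v w}) Finset.univ_nonempty
  obtain ⟨m, rfl⟩ : ∃ m, r = m + 1 := ⟨r - 1, by omega⟩
  refine ⟨v, ?_⟩
  have h := key D hD m (by omega) hc v fun u => hv u (Finset.mem_univ u)
  simpa only [Set.ncard_eq_toFinset_card', Set.toFinset_ofPred, Nat.add_sub_cancel] using h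

/-- Some vertex has `5 |N₂⁺(v)| ≥ 4 |N₁⁺(v)|` when the underlying graph has no `K₄`, and
`2 (r - 1) |N₂⁺(v)| ≥ r |N₁⁺(v)|` when it has no clique on `r + 1` vertices. -/
theorem result (V : Type) [Finite V] [Nonempty V] (D : V → V → Prop)
    (hD : ∀ u v, D u v → ¬ D v u) :
    ((SimpleGraph.fromRel D).CliqueFree 4 →
      ∃ v, 4 * {w | D v w}.ncard ≤
        5 * {w | w ≠ v ∧ ¬ D v w ∧ ∃ u, D v u ∧ D u w}.ncard) ∧
    ∀ r : ℕ, 2 ≤ r → (SimpleGraph.fromRel D).CliqueFree (r + 1) →
      ∃ v, r * {w | D v w}.ncard ≤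
        2 * (r - 1) * {w | w ≠ v ∧ ¬ D v w ∧ ∃ u, D v u ∧ D u w}.ncard := by
  classical
  let _ := Fintype.ofFinite V
  refine ⟨fun hc => ?_, fun r hr hc => general_ratio r hr V D hD hc⟩
  have hne : ∀ x y, (D x y ∨ D y x) → x ≠ y := fun x y h e => by
    subst e
    rcases h with h | h <;> exact hD _ _ h h
  obtain ⟨v, hv⟩ := P038.four_fifths hD (fun a b c e hab hac hae hbc hbe hce =>
    hc {a, b, c, e} (SimpleGraph.isNClique_iff _ |>.2 ⟨by
      intro x hx y hy hxy
      simp only [Finset.coe_insert, Finset.coe_singleton, Set.mem_insert_iff,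
        Set.mem_singleton_iff] at hx hy
      rcases hx with rfl | rfl | rfl | rfl <;> rcases hy with rfl | rfl | rfl | rfl <;>
        simp_all [SimpleGraph.fromRel_adj, or_comm],
      by simp [hne _ _ hab, hne _ _ hac, hne _ _ hae, hne _ _ hbc, hne _ _ hbe, hne _ _ hce]⟩))
  exact ⟨v, by simpa only [Set.ncard_eq_toFinset_card', Set.toFinset_ofPred] using hv⟩

end Vale.Agent.Results.P038.CliqueNumberRatio
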