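import Vale.Agent.P038.Biclique

/-!
Second neighbourhoods in oriented graphs whose missing graph has no large balanced biclique.
-/

namespace Vale.Agent.Results.P038.MissingBicliqueBound

/-- If no two disjoint sets of `s + 1` vertices have no arc between them, then some vertex `v` has
`|N₁⁺(v)| ≤ |N₂⁺(v)| + √(2 s n)`, stated with squares of truncated differences. -/
theorem result (V : Type) [Finite V] [Nonempty V] (D : V → V → Prop)
    (hD : ∀ u v, D u v → ¬ D v u) (s : ℕ)
    (hs : ∀ P Q : Set V, P.ncard = s + 1 → Q.ncard = s + 1 →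
      ∃ a ∈ P, ∃ b ∈ Q, a = b ∨ D a b ∨ D b a) :
    ∃ v, ({w | D v w}.ncard -
      {w | w ≠ v ∧ ¬ D v w ∧ ∃ u, D v u ∧ D u w}.ncard) ^ 2 ≤ 2 * s * Nat.card V := by
  classical
  let _ := Fintype.ofFinite V
  obtain ⟨v, hv⟩ := Vale.Agent.P038.Biclique.exists_deficit_sq_le D hD s fun P Q hP hQ => by
    simpa using hs (↑P) (↑Q) (by simpa using hP) (by simpa using hQ)
  refine ⟨v, ?_⟩
  simpa only [Set.ncard_eq_toFinset_card', Set.toFinset_ofPred, Nat.card_eq_fintype_card] using hv

end Vale.Agent.Results.P038.MissingBicliqueBound
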