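import Vale.Agent.P038.NearTournament

/-!
Second neighbourhoods in oriented graphs in which every vertex has few non-neighbours.
-/

namespace Vale.Agent.Results.P038.NearTournamentBound

/-- If every vertex of an oriented graph is nonadjacent to at most `Δ` other vertices, then some
vertex `v` has `|N₁⁺(v)| ≤ |N₂⁺(v)| + 2 Δ`; hence if moreover every out-degree is at least
`2 k Δ`, then some vertex has `(k - 1) |N₁⁺(v)| ≤ k |N₂⁺(v)|`. -/
theorem result (V : Type) [Finite V] [Nonempty V] (D : V → V → Prop)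
    (hD : ∀ u v, D u v → ¬ D v u) (Δ : ℕ)
    (hΔ : ∀ a, {b | b ≠ a ∧ ¬ D a b ∧ ¬ D b a}.ncard ≤ Δ) :
    (∃ v, {w | D v w}.ncard ≤
      {w | w ≠ v ∧ ¬ D v w ∧ ∃ u, D v u ∧ D u w}.ncard + 2 * Δ) ∧
    ∀ k : ℕ, (∀ v, 2 * k * Δ ≤ {w | D v w}.ncard) →
      ∃ v, (k - 1) * {w | D v w}.ncard ≤
        k * {w | w ≠ v ∧ ¬ D v w ∧ ∃ u, D v u ∧ D u w}.ncard := by
  classical
  let _ := Fintype.ofFinite V
  obtain ⟨v, hv⟩ := Vale.Agent.P038.NearTournament.exists_second_ge D hD Δ fun a => by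
    simpa only [Set.ncard_eq_toFinset_card', Set.toFinset_ofPred] using hΔ a
  simp only [Set.ncard_eq_toFinset_card', Set.toFinset_ofPred]
  refine ⟨⟨v, hv⟩, fun k hk => ⟨v, ?_⟩⟩
  rcases k with _ | k
  · simp
  · simp only [Nat.add_sub_cancel]
    nlinarith [hk v]

end Vale.Agent.Results.P038.NearTournamentBound
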